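import Vale.Agent.H11.TT.Defs

namespace Vale.Agent.H11.TT

open Filter Topology
open scoped RealInnerProductSpace
open Vale.Agent.H11.TS (CubicData)

variable {E : Type*} [NormedAddCommGroup E] [InnerProductSpace ℝ E]
variable {F : E → ℝ} {n : E → E} {K : E →L[ℝ] E →L[ℝ] E}

/-! ## Row A2: maximisers of perturbed functionals -/

theorem GradData.approx_seq [FiniteDimensional ℝ E] (h : GradData F n) (V w : E)
    (hV : F V = 1) :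
    ∃ (s : ℕ → ℝ) (Vj : ℕ → E) (c : ℕ → ℝ),
      (∀ j, 0 < s j) ∧ Tendsto s atTop (𝓝 0) ∧ (∀ j, 0 < c j) ∧ (∀ j, Vj j ≠ 0) ∧
      (∀ j, n (Vj j) = c j • (n V + s j • w)) ∧ Tendsto Vj atTop (𝓝 V) ∧
      (w ≠ 0 → ⟪w, V⟫ = 0 → ∀ j, 0 < ⟪w, Vj j⟫) := by
  sorry

/-! ## Row A5: positivity of `K V0` -/

theorem K_top_pos [FiniteDimensional ℝ E] (h : GradData F n) (hK : CubicData n K) {V0 : E}
    {κ : ℝ} (h1 : ‖V0‖ = 1) (hκ : 0 < κ) (h2 : K V0 V0 = κ • V0)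
    (h3 : ∀ U, ⟪U, V0⟫ = 0 → ⟪K V0 U, U⟫ ≤ κ / 2 * ‖U‖ ^ 2)
    {c : ℝ} (hc : 0 < c) (hn : n V0 = c • V0) :
    ∀ U, U ≠ 0 → 0 < ⟪K V0 U, U⟫ := by
  sorry

/-! ## Row A6 -/

theorem K_eq_zero_of_eig [FiniteDimensional ℝ E] (h : GradData F n) (hK : CubicData n K)
    {V W : E} {μ : ℝ} (hV : F V = 1)
    (hμ : K (n V) V = μ • V) (hW : K (n V) W = μ • W) (hWV : ⟪W, V⟫ = 0) : K V W = 0 := by
  sorry

/-! ## Row A7 -/

theorem no_double [FiniteDimensional ℝ E] (h : GradData F n) (hK : CubicData n K)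
    {V W : E} {μ : ℝ} (hV : V ≠ 0) (hμ : K (n V) V = μ • V)
    (htop : ∀ w, ⟪K (n V) w, w⟫ ≤ μ * ‖w‖ ^ 2)
    (hW0 : W ≠ 0) (hW : K (n V) W = μ • W) (hWV : ⟪W, V⟫ = 0)
    {V0 : E} (hpos : ∀ U, U ≠ 0 → 0 < ⟪K V0 U, U⟫) : False := by
  sorry

/-! ## Row A8: conclusion -/

theorem cubic_eq_zero [FiniteDimensional ℝ E] (h : GradData F n) (hK : CubicData n K)
    (hdim : 2 ≤ Module.finrank ℝ E) : K = 0 := by
  sorry

end Vale.Agent.H11.TT
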